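import Vale.Agent.P038.Defs
import Mathlib.Combinatorics.Hall.Basic

/-!
# The gap inequality and the exchange of outer pairs (P038)

`N a` is the closed out-neighbourhood of `a` in an oriented graph.
-/

open Finset

namespace Vale.Agent.P038.H381

variable {V : Type*} [DecidableEq V]

/-- The closed out-neighbourhood of a set. -/
def cl (N : V → Finset V) (S : Finset V) : Finset V := S.biUnion N

/-- The number of vertices of the out-boundary of a set. -/
def h (N : V → Finset V) (S : Finset V) : ℕ := (cl N S \ S).card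

variable {N : V → Finset V}

theorem mem_cl {S : Finset V} {x : V} : x ∈ cl N S ↔ ∃ y ∈ S, x ∈ N y := by
  simp [cl]

theorem cl_mono {S T : Finset V} (hST : S ⊆ T) : cl N S ⊆ cl N T :=
  Finset.biUnion_subset_biUnion_of_subset_left _ hST

theorem cl_union (S T : Finset V) : cl N (S ∪ T) = cl N S ∪ cl N T := by
  ext x
  simp only [mem_cl, mem_union]
  constructor
  · rintro ⟨y, hy | hy, hx⟩
    · exact Or.inl ⟨y, hy, hx⟩
    · exact Or.inr ⟨y, hy, hx⟩
  · rintro (⟨y, hy, hx⟩ | ⟨y, hy, hx⟩)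
    · exact ⟨y, Or.inl hy, hx⟩
    · exact ⟨y, Or.inr hy, hx⟩

theorem subset_cl (hN : ∀ a, a ∈ N a) (S : Finset V) : S ⊆ cl N S :=
  fun x hx => mem_cl.2 ⟨x, hx, hN x⟩

theorem card_cl (hN : ∀ a, a ∈ N a) (S : Finset V) :
    (cl N S).card = h N S + S.card :=
  (card_sdiff_add_card_eq_card (subset_cl hN S)).symm

theorem h_submod (hN : ∀ a, a ∈ N a) (S T : Finset V) :
    h N (S ∪ T) + h N (S ∩ T) ≤ h N S + h N T := by
  have h1 := card_cl hN (S ∪ T)
  have h2 := card_cl hN (S ∩ T)
  have h3 := card_cl hN S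
  have h4 := card_cl hN T
  have h5 := card_union_add_card_inter S T
  have h6 := card_union_add_card_inter (cl N S) (cl N T)
  rw [cl_union] at h1
  have h7 : (cl N (S ∩ T)).card ≤ (cl N S ∩ cl N T).card :=
    card_le_card (subset_inter (cl_mono inter_subset_left) (cl_mono inter_subset_right))
  omega

/-- The least boundary of a set between `P` and `Q` which contains `W ∩ Q`. -/
noncomputable def k (N : V → Finset V) (P Q W : Finset V) : ℕ :=
  sInf {n | ∃ Y, P ⊆ Y ∧ W ∩ Q ⊆ Y ∧ Y ⊆ Q ∧ h N Y = n}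

theorem k_le {P Q W Y : Finset V} (h1 : P ⊆ Y) (h2 : W ∩ Q ⊆ Y) (h3 : Y ⊆ Q) :
    k N P Q W ≤ h N Y :=
  Nat.sInf_le ⟨Y, h1, h2, h3, rfl⟩

theorem k_spec {P Q : Finset V} (W : Finset V) (hPQ : P ⊆ Q) :
    ∃ Y, P ⊆ Y ∧ W ∩ Q ⊆ Y ∧ Y ⊆ Q ∧ h N Y = k N P Q W :=
  Nat.sInf_mem (s := {n | ∃ Y, P ⊆ Y ∧ W ∩ Q ⊆ Y ∧ Y ⊆ Q ∧ h N Y = n})
    ⟨_, Q, hPQ, inter_subset_right, Subset.rfl, rfl⟩

theorem k_mono {P Q W W' : Finset V} (hPQ : P ⊆ Q) (hW : W ⊆ W') :
    k N P Q W ≤ k N P Q W' := by
  obtain ⟨Y, h1, h2, h3, h4⟩ := k_spec (N := N) W' hPQ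
  rw [← h4]
  exact k_le h1 ((inter_subset_inter_right hW).trans h2) h3

variable [Fintype V]

section Gap

variable (N) in
/-- The set of the `x` which lie in `U a` for every closed in-neighbour `a` of `z`. -/
def meet (U : V → Finset V) (z : V) : Finset V :=
  univ.filter fun x => ∀ a, z ∈ N a → x ∈ U a

theorem mem_meet {U : V → Finset V} {z x : V} : x ∈ meet N U z ↔ ∀ a, z ∈ N a → x ∈ U a := by
  simp [meet]

theorem meet_subset {U : V → Finset V} {a z : V} (hz : z ∈ N a) : meet N U z ⊆ U a :=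
  fun _ hx => mem_meet.1 hx a hz

theorem meet_mono {B U : V → Finset V} (hBU : ∀ a, B a ⊆ U a) (z : V) :
    meet N B z ⊆ meet N U z :=
  fun _ hx => mem_meet.2 fun a ha => hBU a (mem_meet.1 hx a ha)

variable {B U : V → Finset V}

/-- (1): the meet of the `B a` is a minimiser below the meet of the `U a`. -/
theorem h_meet_le (hN : ∀ a, a ∈ N a)
    (hR : ∀ a Y, B a ⊆ Y → Y ⊆ U a → h N (B a) ≤ h N Y) (hBU : ∀ a, B a ⊆ U a) {z : V}
    {Y : Finset V} (h1 : meet N B z ⊆ Y) (h2 : Y ⊆ meet N U z) :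
    h N (meet N B z) ≤ h N Y := by
  have key : ∀ F : Finset V, (∀ a ∈ F, z ∈ N a) →
      h N (Y.filter fun x => ∀ a ∈ F, x ∈ B a) ≤ h N Y := by
    intro F
    induction F using Finset.induction_on with
    | empty => intro _; simp
    | insert a F ha ih =>
      intro hF
      have ih' := ih fun b hb => hF b (mem_insert_of_mem hb)
      set T := Y.filter fun x => ∀ a ∈ F, x ∈ B a with hT
      have hTU : T ⊆ U a := (filter_subset _ _).trans
        (h2.trans (meet_subset (hF a (mem_insert_self a F))))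
      have e : (Y.filter fun x => ∀ b ∈ insert a F, x ∈ B b) = T ∩ B a := by
        ext x
        simp only [hT, mem_filter, mem_inter, mem_insert, forall_eq_or_imp]
        tauto
      rw [e]
      have s := h_submod hN T (B a)
      have r := hR a (T ∪ B a) subset_union_right (union_subset hTU (hBU a))
      omega
  have := key (univ.filter fun a => z ∈ N a) (by simp)
  have e : (Y.filter fun x => ∀ a ∈ univ.filter (fun a => z ∈ N a), x ∈ B a) = meet N B z := by
    ext x
    simp only [mem_filter, mem_univ, true_and, mem_meet]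
    exact ⟨fun hx => hx.2, fun hx => ⟨h1 (mem_meet.2 hx), hx⟩⟩
  rwa [e] at this

/-- The inductive form of the gap inequality. -/
theorem gap_aux (hN : ∀ a, a ∈ N a) (hBU : ∀ a, B a ⊆ U a)
    (hR : ∀ a Y, B a ⊆ Y → Y ⊆ U a → h N (B a) ≤ h N Y)
    (hC : ∀ b (S : Finset V), (∀ a ∈ S, b ∈ U a ∧ b ∉ B a) →
      S.card ≤ ((cl N S).filter fun z => b ∈ meet N U z).card) (W : Finset V) :
    (∑ a, k N (B a) (U a) W) + ∑ z, h N (meet N B z) ≤
      (∑ z, k N (meet N B z) (meet N U z) W) + ∑ a, h N (B a) := by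
  induction W using Finset.induction_on with
  | empty =>
    have h1 : ∑ a, k N (B a) (U a) ∅ ≤ ∑ a, h N (B a) :=
      sum_le_sum fun a _ => k_le Subset.rfl (by simp) (hBU a)
    have h2 : ∑ z, h N (meet N B z) ≤ ∑ z, k N (meet N B z) (meet N U z) ∅ := by
      refine sum_le_sum fun z _ => ?_
      obtain ⟨Y, g1, _, g3, g4⟩ := k_spec (N := N) ∅ (meet_mono (N := N) hBU z)
      rw [← g4]
      exact h_meet_le hN hR hBU g1 g3
    omega
  | insert b W hb ih =>
    -- the increments
    set α : V → ℤ := fun a => (k N (B a) (U a) (insert b W) : ℤ) - k N (B a) (U a) W with hα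
    set γ : V → ℤ := fun z => (k N (meet N B z) (meet N U z) (insert b W) : ℤ) -
      k N (meet N B z) (meet N U z) W with hγ
    have hγ0 : ∀ z, 0 ≤ γ z := by
      intro z
      have := k_mono (N := N) (meet_mono (N := N) hBU z) (subset_insert b W)
      simp only [hγ]
      omega
    have hα0 : ∀ a, ¬ (b ∈ U a ∧ b ∉ B a) → α a ≤ 0 := by
      intro a ha
      obtain ⟨Y, g1, g2, g3, g4⟩ := k_spec (N := N) W (hBU a)
      have : k N (B a) (U a) (insert b W) ≤ h N Y := by
        refine k_le g1 ?_ g3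
        intro x hx
        rcases mem_inter.1 hx with ⟨hx1, hx2⟩
        rcases mem_insert.1 hx1 with rfl | hx1
        · by_contra hxY
          exact ha ⟨hx2, fun hh => hxY (g1 hh)⟩
        · exact g2 (mem_inter.2 ⟨hx1, hx2⟩)
      simp only [hα]
      omega
    have hαγ : ∀ a z, z ∈ N a → b ∈ meet N U z → α a ≤ γ z := by
      intro a z hz hbz
      obtain ⟨Y, g1, g2, g3, g4⟩ := k_spec (N := N) (insert b W) (meet_mono (N := N) hBU z)
      obtain ⟨Y', g1', g2', g3', g4'⟩ := k_spec (N := N) W (hBU a)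
      have hbY : b ∈ Y := g2 (mem_inter.2 ⟨mem_insert_self b W, hbz⟩)
      have hMU : meet N U z ⊆ U a := meet_subset hz
      have e1 : k N (B a) (U a) (insert b W) ≤ h N (Y ∪ Y') := by
        refine k_le (g1'.trans subset_union_right) ?_ (union_subset (g3.trans hMU) g3')
        intro x hx
        rcases mem_inter.1 hx with ⟨hx1, hx2⟩
        rcases mem_insert.1 hx1 with rfl | hx1
        · exact mem_union_left _ hbY
        · exact mem_union_right _ (g2' (mem_inter.2 ⟨hx1, hx2⟩))
      have e2 : k N (meet N B z) (meet N U z) W ≤ h N (Y ∩ Y') := by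
        refine k_le (subset_inter g1 ((meet_subset hz).trans g1')) ?_
          (inter_subset_left.trans g3)
        intro x hx
        rcases mem_inter.1 hx with ⟨hx1, hx2⟩
        exact mem_inter.2 ⟨g2 (mem_inter.2 ⟨mem_insert_of_mem hx1, hx2⟩),
          g2' (mem_inter.2 ⟨hx1, hMU hx2⟩)⟩
      have e3 := h_submod hN Y Y'
      simp only [hα, hγ]
      omega
    -- Hall's theorem in column `b`
    obtain ⟨f, hf, hft⟩ := (Finset.all_card_le_biUnion_card_iff_exists_injective
      (fun a : {a : V // b ∈ U a ∧ b ∉ B a} => (N a).filter fun z => b ∈ meet N U z)).1 (by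
        intro s
        have := hC b (s.map ⟨Subtype.val, Subtype.val_injective⟩) (by
          intro a ha
          rcases mem_map.1 ha with ⟨x, _, rfl⟩
          exact x.2)
        rw [card_map] at this
        refine this.trans (card_le_card ?_)
        intro z hz
        rcases mem_filter.1 hz with ⟨hz1, hz2⟩
        rcases mem_cl.1 hz1 with ⟨y, hy, hzy⟩
        rcases mem_map.1 hy with ⟨x, hx, rfl⟩
        exact mem_biUnion.2 ⟨x, hx, mem_filter.2 ⟨hzy, hz2⟩⟩)
    have hsum : ∑ a, α a ≤ ∑ z, γ z := by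
      calc ∑ a, α a ≤ ∑ a ∈ univ.filter (fun a => b ∈ U a ∧ b ∉ B a), α a := by
            rw [← sum_filter_add_sum_filter_not univ (fun a => b ∈ U a ∧ b ∉ B a)]
            have : ∑ a ∈ univ.filter (fun a => ¬ (b ∈ U a ∧ b ∉ B a)), α a ≤ 0 :=
              sum_nonpos fun a ha => hα0 a (mem_filter.1 ha).2
            linarith
        _ = ∑ x : {a : V // b ∈ U a ∧ b ∉ B a}, α x := by
            rw [← Finset.sum_subtype_eq_sum_filter]
            simp
        _ ≤ ∑ x : {a : V // b ∈ U a ∧ b ∉ B a}, γ (f x) := by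
            refine sum_le_sum fun x _ => ?_
            have := mem_filter.1 (hft x)
            exact hαγ x (f x) this.1 this.2
        _ = ∑ z ∈ univ.map ⟨f, hf⟩, γ z := by rw [sum_map]; rfl
        _ ≤ ∑ z, γ z := sum_le_sum_of_subset_of_nonneg (subset_univ _) fun z _ _ => hγ0 z
    have e1 : ∑ a, α a = ((∑ a, k N (B a) (U a) (insert b W) : ℕ) : ℤ) -
        ((∑ a, k N (B a) (U a) W : ℕ) : ℤ) := by
      simp only [hα, sum_sub_distrib]
      push_cast
      ring
    have e2 : ∑ z, γ z = ((∑ z, k N (meet N B z) (meet N U z) (insert b W) : ℕ) : ℤ) -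
        ((∑ z, k N (meet N B z) (meet N U z) W : ℕ) : ℤ) := by
      simp only [hγ, sum_sub_distrib]
      push_cast
      ring
    omega

/-- The gap inequality. -/
theorem gap (hN : ∀ a, a ∈ N a) (hBU : ∀ a, B a ⊆ U a)
    (hR : ∀ a Y, B a ⊆ Y → Y ⊆ U a → h N (B a) ≤ h N Y)
    (hC : ∀ b (S : Finset V), (∀ a ∈ S, b ∈ U a ∧ b ∉ B a) →
      S.card ≤ ((cl N S).filter fun z => b ∈ meet N U z).card) :
    (∑ a, h N (U a)) + ∑ z, h N (meet N B z) ≤
      (∑ z, h N (meet N U z)) + ∑ a, h N (B a) := by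
  have key := gap_aux hN hBU hR hC univ
  have h1 : ∑ a, h N (U a) ≤ ∑ a, k N (B a) (U a) univ := by
    refine sum_le_sum fun a _ => ?_
    obtain ⟨Y, _, g2, g3, g4⟩ := k_spec (N := N) univ (hBU a)
    rw [univ_inter] at g2
    rw [← g4, Subset.antisymm g3 g2]
  have h2 : ∑ z, k N (meet N B z) (meet N U z) univ ≤ ∑ z, h N (meet N U z) :=
    sum_le_sum fun z _ => k_le (meet_mono hBU z) inter_subset_right Subset.rfl
  omega

end Gap

end Vale.Agent.P038.H381
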