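import Vale.Agent.P038.H381.Pair

/-!
# Seymour's second neighbourhood conjecture (P038)

An arc-minimal counterexample has strictly shrinking boundaries; together with the exchange of
outer pairs this is a contradiction.
-/

open Finset

namespace Vale.Agent.P038.H381

variable {V : Type*} [DecidableEq V]

/-- The vertices at distance two from `v`. -/
def two (G : V → Finset V) (v : V) : Finset V := (G v).biUnion G \ insert v (G v)

theorem mem_two {G : V → Finset V} {v x : V} :
    x ∈ two G v ↔ (∃ u ∈ G v, x ∈ G u) ∧ x ≠ v ∧ x ∉ G v := by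
  simp only [two, mem_sdiff, mem_biUnion, mem_insert, not_or]

/-- The closed neighbourhoods. -/
def nb (G : V → Finset V) (v : V) : Finset V := insert v (G v)

theorem mem_nb {G : V → Finset V} {v x : V} : x ∈ nb G v ↔ x = v ∨ x ∈ G v := by
  simp [nb]

variable [Fintype V]

/-- A counterexample. -/
structure CE (G : V → Finset V) : Prop where
  irr : ∀ v, v ∉ G v
  asymm : ∀ u v, v ∈ G u → u ∉ G v
  big : ∀ v, (two G v).card < (G v).card

/-- The key deletion step: in a counterexample with the fewest arcs all boundaries shrink. -/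
theorem shrink {G : V → Finset V} (hG : CE G)
    (hmin : ∀ G' : V → Finset V, CE G' → ∑ v, (G v).card ≤ ∑ v, (G' v).card)
    (X : Finset V) (hX : h (nb G) X ≠ 0) : h (nb G) (cl (nb G) X) < h (nb G) X := by
  have hN : ∀ a, a ∈ nb G a := fun a => mem_nb.2 (Or.inl rfl)
  by_contra hcon
  push Not at hcon
  set N := nb G with hNdef
  set L := cl N X \ X with hL
  have hLcard : h N X = L.card := rfl
  -- `d T = |N[T] \ X| - 2 |T|`
  let d : Finset V → ℤ := fun T => ((cl N T \ X).card : ℤ) - 2 * T.card
  have hdL : 0 ≤ d L := by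
    have e : cl N L \ X = L ∪ (cl N (cl N X) \ cl N X) := by
      have e1 : cl N X = X ∪ L := by
        rw [hL, union_sdiff_of_subset (subset_cl hN X)]
      ext x
      constructor
      · intro hx
        rcases mem_sdiff.1 hx with ⟨h1, h2⟩
        by_cases hxL : x ∈ L
        · exact mem_union_left _ hxL
        · refine mem_union_right _ (mem_sdiff.2 ⟨cl_mono (by rw [e1]; exact subset_union_right) h1,
            fun hh => hxL (mem_sdiff.2 ⟨hh, h2⟩)⟩)
      · intro hx
        rcases mem_union.1 hx with hx | hx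
        · exact mem_sdiff.2 ⟨subset_cl hN L hx, (mem_sdiff.1 hx).2⟩
        · rcases mem_sdiff.1 hx with ⟨h1, h2⟩
          refine mem_sdiff.2 ⟨?_, fun hxX => h2 (subset_cl hN X hxX)⟩
          rcases mem_cl.1 h1 with ⟨y, hy, hxy⟩
          by_cases hyX : y ∈ X
          · exact absurd (mem_cl.2 ⟨y, hyX, hxy⟩) h2
          · exact mem_cl.2 ⟨y, mem_sdiff.2 ⟨hy, hyX⟩, hxy⟩
    have hdis : Disjoint L (cl N (cl N X) \ cl N X) := by
      rw [disjoint_left]
      intro x hx hx'
      exact (mem_sdiff.1 hx').2 (mem_sdiff.1 hx).1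
    have e2 : (cl N L \ X).card = L.card + h N (cl N X) := by
      rw [e, card_union_of_disjoint hdis]; rfl
    show 0 ≤ ((cl N L \ X).card : ℤ) - 2 * L.card
    rw [e2]
    rw [hLcard] at hcon
    push_cast
    have : (L.card : ℤ) ≤ h N (cl N X) := by exact_mod_cast hcon
    linarith
  -- a minimiser among the proper subsets
  have hne : (L.ssubsets).Nonempty := by
    refine ⟨∅, mem_ssubsets.2 ?_⟩
    rw [empty_ssubset]
    rw [nonempty_iff_ne_empty]
    intro hh
    apply hX
    rw [hLcard, hh, card_empty]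
  obtain ⟨T, hT, hTmin⟩ := exists_min_image L.ssubsets d hne
  have hTL : T ⊂ L := mem_ssubsets.1 hT
  have hT0 : d T ≤ 0 := by
    have := hTmin ∅ (mem_ssubsets.2 (by
      rw [empty_ssubset, nonempty_iff_ne_empty]
      intro hh
      apply hX
      rw [hLcard, hh, card_empty]))
    simpa [d, cl] using this
  have hstep : ∀ D ⊆ L \ T, 2 * (D.card : ℤ) ≤ ((cl N D \ (cl N T ∪ X)).card : ℤ) := by
    intro D hD
    have hdT : d T ≤ d (T ∪ D) := by
      by_cases hTD : T ∪ D = L
      · rw [hTD]; exact hT0.trans hdL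
      · refine hTmin _ (mem_ssubsets.2 (Finset.ssubset_iff_subset_ne.2 ⟨union_subset hTL.1
          (hD.trans sdiff_subset), hTD⟩))
    have hdis : Disjoint T D := by
      rw [disjoint_left]
      intro x hx hx'
      exact (mem_sdiff.1 (hD hx')).2 hx
    have e1 : cl N (T ∪ D) \ X = (cl N T \ X) ∪ (cl N D \ (cl N T ∪ X)) := by
      rw [cl_union]
      ext x
      simp only [mem_sdiff, mem_union]
      tauto
    have hdis2 : Disjoint (cl N T \ X) (cl N D \ (cl N T ∪ X)) := by
      rw [disjoint_left]
      intro x hx hx'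
      exact (mem_sdiff.1 hx').2 (mem_union_left _ (mem_sdiff.1 hx).1)
    have e2 : (cl N (T ∪ D) \ X).card = (cl N T \ X).card + (cl N D \ (cl N T ∪ X)).card := by
      rw [e1, card_union_of_disjoint hdis2]
    have e3 : (T ∪ D).card = T.card + D.card := card_union_of_disjoint hdis
    have : ((cl N T \ X).card : ℤ) - 2 * T.card ≤
        ((cl N (T ∪ D) \ X).card : ℤ) - 2 * (T ∪ D).card := hdT
    rw [e2, e3] at this
    push_cast at this
    linarith
  -- the smaller counterexample
  let G' : V → Finset V := fun v => if v ∈ X then G v ∩ (X ∪ T) else G v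
  have hG'sub : ∀ v, G' v ⊆ G v := by
    intro v
    by_cases hv : v ∈ X
    · simp only [G', hv, if_true]; exact inter_subset_left
    · simp only [G', hv, if_false]; exact Subset.rfl
  have hCE : CE G' := by
    refine ⟨fun v hv => hG.irr v (hG'sub v hv), fun u v huv hvu =>
      hG.asymm u v (hG'sub u huv) (hG'sub v hvu), fun y => ?_⟩
    by_cases hy : y ∈ X
    · -- rows of `X`
      set D := G y \ (X ∪ T) with hD
      have hDL : D ⊆ L \ T := by
        intro x hx
        rcases mem_sdiff.1 hx with ⟨h1, h2⟩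
        refine mem_sdiff.2 ⟨mem_sdiff.2 ⟨mem_cl.2 ⟨y, hy, mem_nb.2 (Or.inr h1)⟩,
          fun hh => h2 (mem_union_left _ hh)⟩, fun hh => h2 (mem_union_right _ hh)⟩
      set E := cl N D \ (cl N T ∪ X) with hE
      have hDE := hstep D hDL
      have hTX : ∀ x ∈ T, x ∉ X := fun x hx => (mem_sdiff.1 (hTL.1 hx)).2
      -- the second neighbourhood in the smaller graph
      have hsub : two G' y ⊆ (two G y ∪ D) \ E := by
        intro x hx
        obtain ⟨⟨u, hu, hxu⟩, hxy, hxG⟩ := mem_two.1 hx
        refine mem_sdiff.2 ⟨?_, ?_⟩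
        · by_cases hxG' : x ∈ G y
          · refine mem_union_right _ (mem_sdiff.2 ⟨hxG', fun hh => hxG ?_⟩)
            simp only [G', hy, if_true]
            exact mem_inter.2 ⟨hxG', hh⟩
          · exact mem_union_left _ (mem_two.2 ⟨⟨u, hG'sub y hu, hG'sub u hxu⟩, hxy, hxG'⟩)
        · intro hxE
          have hxE' := (mem_sdiff.1 hxE).2
          have hu' : u ∈ X ∪ T := by
            simp only [G', hy, if_true] at hu
            exact (mem_inter.1 hu).2
          rcases mem_union.1 hu' with huX | huT
          · simp only [G', huX, if_true] at hxu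
            rcases mem_union.1 (mem_inter.1 hxu).2 with hh | hh
            · exact hxE' (mem_union_right _ hh)
            · exact hxE' (mem_union_left _ (subset_cl hN T hh))
          · exact hxE' (mem_union_left _ (mem_cl.2 ⟨u, huT, mem_nb.2 (Or.inr (hG'sub u hxu))⟩))
      have hEsub : E ⊆ two G y ∪ D := by
        intro x hx
        rcases mem_sdiff.1 hx with ⟨h1, h2⟩
        obtain ⟨u, hu, hxu⟩ := mem_cl.1 h1
        by_cases hxG' : x ∈ G y
        · refine mem_union_right _ (mem_sdiff.2 ⟨hxG', fun hh => h2 ?_⟩)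
          rcases mem_union.1 hh with hh | hh
          · exact mem_union_right _ hh
          · exact mem_union_left _ (subset_cl hN T hh)
        · rcases mem_nb.1 hxu with hh | hh
          · subst hh
            exact absurd (mem_sdiff.1 hu).1 hxG'
          · refine mem_union_left _ (mem_two.2 ⟨⟨u, (mem_sdiff.1 hu).1, hh⟩, ?_, hxG'⟩)
            rintro rfl
            exact h2 (mem_union_right _ hy)
      have c1 := card_le_card hsub
      have c2 : ((two G y ∪ D) \ E).card + E.card = (two G y ∪ D).card :=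
        card_sdiff_add_card_eq_card hEsub
      have c3 := card_union_le (two G y) D
      have c4 : (G' y).card + D.card = (G y).card := by
        simp only [G', hy, if_true, hD]
        rw [add_comm]
        exact card_sdiff_add_card_inter (G y) (X ∪ T)
      have c5 := hG.big y
      have c6 : 2 * D.card ≤ E.card := by exact_mod_cast hDE
      omega
    · -- the other rows
      have e1 : G' y = G y := by simp only [G', hy, if_false]
      have hsub : two G' y ⊆ two G y := by
        intro x hx
        obtain ⟨⟨u, hu, hxu⟩, hxy, hxG⟩ := mem_two.1 hx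
        exact mem_two.2 ⟨⟨u, hG'sub y hu, hG'sub u hxu⟩, hxy, by rwa [e1] at hxG⟩
      have c1 := card_le_card hsub
      have c2 := hG.big y
      rw [e1]
      omega
  -- it has fewer arcs
  obtain ⟨x, hxL, hxT⟩ := exists_of_ssubset hTL
  rcases mem_sdiff.1 hxL with ⟨hx1, hx2⟩
  obtain ⟨y, hy, hxy⟩ := mem_cl.1 hx1
  have hxG : x ∈ G y := by
    rcases mem_nb.1 hxy with hh | hh
    · exact absurd (hh ▸ hy) hx2
    · exact hh
  have hlt : ∑ v, (G' v).card < ∑ v, (G v).card := by
    refine sum_lt_sum (fun v _ => card_le_card (hG'sub v)) ⟨y, mem_univ y, ?_⟩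
    refine card_lt_card (Finset.ssubset_iff_subset_ne.2 ⟨hG'sub y, fun hh => ?_⟩)
    have : x ∈ G' y := by rw [hh]; exact hxG
    simp only [G', hy, if_true] at this
    rcases mem_union.1 (mem_inter.1 this).2 with hh | hh
    · exact hx2 hh
    · exact hxT hh
  exact absurd (hmin G' hCE) (by omega)

/-- There is no counterexample. -/
theorem no_ce [Nonempty V] (G : V → Finset V) : ¬ CE G := by
  classical
  intro hG0
  -- a counterexample with the fewest arcs
  obtain ⟨G, hGm, hGmin⟩ := exists_min_image
    (univ.filter fun G : V → Finset V => CE G) (fun G => ∑ v, (G v).card)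
    ⟨G, mem_filter.2 ⟨mem_univ _, hG0⟩⟩
  have hG : CE G := (mem_filter.1 hGm).2
  have hmin : ∀ G' : V → Finset V, CE G' → ∑ v, (G v).card ≤ ∑ v, (G' v).card :=
    fun G' h' => hGmin G' (mem_filter.2 ⟨mem_univ _, h'⟩)
  have hN : ∀ a, a ∈ nb G a := fun a => mem_nb.2 (Or.inl rfl)
  have hanti : ∀ a b, b ∈ nb G a → a ∈ nb G b → a = b := by
    intro a b hb ha
    rcases mem_nb.1 hb with hb | hb
    · exact hb.symm
    · rcases mem_nb.1 ha with ha | ha
      · exact ha
      · exact absurd ha (hG.asymm a b hb)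
  obtain ⟨X, Y, hX, hY, hXc, hYc, hXY⟩ := exists_closed hN hanti (fun S hS => shrink hG hmin S hS)
  -- a smallest nonempty closed set
  obtain ⟨a0⟩ := ‹Nonempty V›
  obtain ⟨S, hSm, hSmin⟩ := exists_min_image
    (univ.filter fun S : Finset V => S.Nonempty ∧ cl (nb G) S = S) Finset.card
    ⟨X a0, mem_filter.2 ⟨mem_univ _, ⟨a0, hX a0⟩, hXc a0⟩⟩
  obtain ⟨⟨a, ha⟩, hSc⟩ := (mem_filter.1 hSm).2
  have hGa : (G a).Nonempty := by
    rw [← card_pos]
    have := hG.big a
    omega
  obtain ⟨b, hb⟩ := hGa
  have hclosed : ∀ {Z : Finset V} {u x : V}, cl (nb G) Z = Z → u ∈ Z → x ∈ G u → x ∈ Z := by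
    intro Z u x hZ hu hx
    rw [← hZ]
    exact mem_cl.2 ⟨u, hu, mem_nb.2 (Or.inr hx)⟩
  have hbS : b ∈ S := hclosed hSc ha hb
  -- every closed set which contains `b` contains `a`
  have hbig : ∀ Z : Finset V, cl (nb G) Z = Z → b ∈ Z → a ∈ Z := by
    intro Z hZ hbZ
    have hc : cl (nb G) (Z ∩ S) = Z ∩ S := by
      refine Subset.antisymm (subset_inter ?_ ?_) (subset_cl hN _)
      · exact (cl_mono inter_subset_left).trans (by rw [hZ])
      · exact (cl_mono inter_subset_right).trans (by rw [hSc])
    have := hSmin (Z ∩ S) (mem_filter.2 ⟨mem_univ _, ⟨b, mem_inter.2 ⟨hbZ, hbS⟩⟩, hc⟩)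
    have e := eq_of_subset_of_card_le (inter_subset_right (s₁ := Z) (s₂ := S)) this
    have : a ∈ Z ∩ S := by rw [e]; exact ha
    exact (mem_inter.1 this).1
  have h1 : b ∈ X a := hclosed (hXc a) (hX a) hb
  have h2 : a ∈ Y b := hbig (Y b) (hYc b) (hY b)
  have h3 : a = b := hXY a b h1 h2
  subst h3
  exact hG.irr a hb

end Vale.Agent.P038.H381

namespace Vale.Agent.P038

open Finset H381 in
/-- **Seymour's second neighbourhood conjecture.** Every nonempty finite oriented graph has a vertex
whose second out-neighbourhood is at least as large as its first out-neighbourhood. -/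
theorem seymour {V : Type*} [Fintype V] [Nonempty V] (D : OGraph V) :
    ∃ v, (N1 D v).card ≤ (N2 D v).card := by
  classical
  by_contra hcon
  push Not at hcon
  refine no_ce (fun v => N1 D v) ⟨fun v hv => D.loopless v (mem_N1.1 hv),
    fun u v huv hvu => D.asymm u v (mem_N1.1 huv) (mem_N1.1 hvu), fun v => ?_⟩
  have e : two (fun v => N1 D v) v = N2 D v := by
    ext x
    rw [mem_two, mem_N2]
    simp only [mem_N1]
    constructor
    · rintro ⟨⟨u, h1, h2⟩, h3, h4⟩
      exact ⟨h3, h4, u, h1, h2⟩
    · rintro ⟨h3, h4, u, h1, h2⟩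
      exact ⟨⟨u, h1, h2⟩, h3, h4⟩
  rw [e]
  exact hcon v

end Vale.Agent.P038
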