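import Vale.Agent.P038.H381.Core

/-!
# Outer pairs: optimality conditions and the exchange (P038)
-/

open Finset

namespace Vale.Agent.P038.H381

variable {V : Type*} [DecidableEq V] [Fintype V]

/-- An outer pair of families. -/
structure Feas (N : V → Finset V) (B C : V → Finset V) : Prop where
  hB : ∀ a, N a ⊆ B a
  hC : ∀ a, N a ⊆ C a
  hBC : ∀ a x, x ∈ B a → a ∈ C x → a = x

variable {N : V → Finset V} {B C : V → Finset V}

/-- Replacing one set of the first family. -/
theorem Feas.update_left (hF : Feas N B C) {a : V} {Y : Finset V} (h1 : N a ⊆ Y)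
    (h2 : ∀ x ∈ Y, a ∈ C x → a = x) : Feas N (Function.update B a Y) C := by
  refine ⟨?_, hF.hC, ?_⟩
  · intro b
    by_cases hb : b = a
    · subst hb; simpa using h1
    · simpa [Function.update_of_ne hb] using hF.hB b
  · intro b x hx hbx
    by_cases hb : b = a
    · subst hb
      rw [Function.update_self] at hx
      exact h2 x hx hbx
    · rw [Function.update_of_ne hb] at hx
      exact hF.hBC b x hx hbx

/-- Replacing one set of the second family. -/
theorem Feas.update_right (hF : Feas N B C) {b : V} {Y : Finset V} (h1 : N b ⊆ Y)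
    (h2 : ∀ a ∈ Y, b ∈ B a → a = b) : Feas N B (Function.update C b Y) := by
  refine ⟨hF.hB, ?_, ?_⟩
  · intro x
    by_cases hb : x = b
    · subst hb; simpa using h1
    · simpa [Function.update_of_ne hb] using hF.hC x
  · intro a x hx hax
    by_cases hb : x = b
    · subst hb
      rw [Function.update_self] at hax
      exact h2 a hax hx
    · rw [Function.update_of_ne hb] at hax
      exact hF.hBC a x hx hax

theorem sum_update (f : V → Finset V) (a : V) (Y : Finset V) :
    (∑ x, h N (Function.update f a Y x)) + h N (f a) = (∑ x, h N (f x)) + h N Y := by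
  rw [← Finset.add_sum_erase univ (fun x => h N (Function.update f a Y x)) (mem_univ a),
    ← Finset.add_sum_erase univ (fun x => h N (f x)) (mem_univ a)]
  have : ∑ x ∈ univ.erase a, h N (Function.update f a Y x) = ∑ x ∈ univ.erase a, h N (f x) := by
    refine sum_congr rfl fun x hx => ?_
    rw [Function.update_of_ne (ne_of_mem_erase hx)]
  rw [this, Function.update_self]
  omega

/-- The complement of the transpose of the second family, with the diagonal. -/
def up (C : V → Finset V) (a : V) : Finset V := univ.filter fun x => x = a ∨ a ∉ C x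

theorem mem_up {a x : V} : x ∈ up C a ↔ (x = a ∨ a ∉ C x) := by
  simp [up]

theorem self_mem_up (a : V) : a ∈ up C a := mem_up.2 (Or.inl rfl)

theorem Feas.sub_up (hF : Feas N B C) (a : V) : B a ⊆ up C a := by
  intro x hx
  refine mem_up.2 ?_
  by_cases hc : a ∈ C x
  · exact Or.inl (hF.hBC a x hx hc).symm
  · exact Or.inr hc

/-- A pair which minimises the outer boundaries. -/
def Opt (N : V → Finset V) (B C : V → Finset V) : Prop :=
  Feas N B C ∧ ∀ B' C', Feas N B' C' →
    (∑ a, h N (B a)) + ∑ a, h N (C a) ≤ (∑ a, h N (B' a)) + ∑ a, h N (C' a)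

theorem Opt.row (hO : Opt N B C) (a : V) (Y : Finset V) (h1 : B a ⊆ Y) (h2 : Y ⊆ up C a) :
    h N (B a) ≤ h N Y := by
  have hF := hO.1
  have := hO.2 _ _ (hF.update_left (a := a) (Y := Y) ((hF.hB a).trans h1) (by
    intro x hx hax
    rcases mem_up.1 (h2 hx) with hh | hh
    · exact hh.symm
    · exact absurd hax hh))
  have e := sum_update (N := N) B a Y
  omega

theorem Opt.col (hN : ∀ a, a ∈ N a) (hO : Opt N B C) (b : V) (S : Finset V)
    (hS : ∀ a ∈ S, b ∈ up C a ∧ b ∉ B a) :
    S.card ≤ ((cl N S).filter fun z => b ∈ meet N (up C) z).card := by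
  have hF := hO.1
  have := hO.2 _ _ (hF.update_right (b := b) (Y := C b ∪ S)
    ((hF.hC b).trans subset_union_left) (by
      intro a ha hba
      rcases mem_union.1 ha with ha | ha
      · exact hF.hBC a b hba ha
      · exact absurd hba (hS a ha).2))
  have e := sum_update (N := N) C b (C b ∪ S)
  have hle : h N (C b) ≤ h N (C b ∪ S) := by omega
  have hdis : Disjoint (C b) S := by
    rw [disjoint_left]
    intro a ha haS
    rcases mem_up.1 (hS a haS).1 with hh | hh
    · subst hh
      exact (hS b haS).2 (hF.hB b (hN b))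
    · exact hh ha
  have h1 := card_cl hN (C b ∪ S)
  have h2 := card_cl hN (C b)
  have h3 := card_union_of_disjoint hdis
  have h4 : (cl N (C b ∪ S)).card = (cl N (C b)).card + (cl N S \ cl N (C b)).card := by
    rw [cl_union, union_comm, ← card_sdiff_add_card (cl N S) (cl N (C b)), add_comm]
  have h5 : (cl N S \ cl N (C b)).card ≤ ((cl N S).filter fun z => b ∈ meet N (up C) z).card := by
    refine card_le_card fun z hz => ?_
    rcases mem_sdiff.1 hz with ⟨hz1, hz2⟩
    refine mem_filter.2 ⟨hz1, mem_meet.2 fun a ha => mem_up.2 (Or.inr fun hab => hz2 ?_)⟩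
    exact mem_cl.2 ⟨a, hab, ha⟩
  omega

theorem sum_card_swap (P : V → V → Prop) [DecidableRel P] :
    ∑ z : V, (univ.filter fun x => P z x).card = ∑ x : V, (univ.filter fun z => P z x).card := by
  simp only [card_filter]
  exact sum_comm

/-- The cost of the second family, seen from the rows. -/
theorem Feas.cost_right (hN : ∀ a, a ∈ N a) (hF : Feas N B C) :
    ∑ z, (up C z).card ≤ (∑ z, (meet N (up C) z).card) + ∑ x, h N (C x) := by
  have h1 : ∀ z, (up C z).card ≤ (meet N (up C) z).card +
      (univ.filter fun x => x ∈ up C z \ meet N (up C) z).card := by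
    intro z
    have : (univ.filter fun x => x ∈ up C z \ meet N (up C) z) = up C z \ meet N (up C) z := by
      ext x; simp
    rw [this]
    have := card_sdiff_add_card (up C z) (meet N (up C) z)
    have h2 := card_le_card (subset_union_left (s₁ := up C z) (s₂ := meet N (up C) z))
    omega
  have h2 : ∑ x, (univ.filter fun z => x ∈ up C z \ meet N (up C) z).card ≤ ∑ x, h N (C x) := by
    refine sum_le_sum fun x _ => card_le_card fun z hz => ?_
    rcases mem_sdiff.1 (mem_filter.1 hz).2 with ⟨hz1, hz2⟩
    rw [mem_meet] at hz2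
    push Not at hz2
    obtain ⟨a, ha, hxa⟩ := hz2
    rw [mem_up] at hxa
    push Not at hxa
    refine mem_sdiff.2 ⟨mem_cl.2 ⟨a, hxa.2, ha⟩, fun hzC => ?_⟩
    rcases mem_up.1 hz1 with hh | hh
    · subst hh
      exact hxa.1 (hF.hBC a x (hF.hB a ha) hxa.2).symm
    · exact hh hzC
  have h3 := sum_card_swap (V := V) fun z x => x ∈ up C z \ meet N (up C) z
  have h4 := sum_le_sum fun z (_ : z ∈ (univ : Finset V)) => h1 z
  rw [sum_add_distrib] at h4
  omega

/-- The cost of the new second family. -/
theorem Feas.cost_meet (hN : ∀ a, a ∈ N a) (hF : Feas N B C) :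
    (∑ z, (cl N (meet N (up C) z)).card) + ∑ x, h N (meet N C x) ≤ ∑ z, (cl N (up C z)).card := by
  have h1 : ∀ z, (cl N (meet N (up C) z)).card +
      (univ.filter fun x => x ∈ cl N (up C z) \ cl N (meet N (up C) z)).card ≤
        (cl N (up C z)).card := by
    intro z
    have : (univ.filter fun x => x ∈ cl N (up C z) \ cl N (meet N (up C) z)) =
        cl N (up C z) \ cl N (meet N (up C) z) := by
      ext x; simp
    rw [this]
    have := card_sdiff_add_card_eq_card (cl_mono (N := N) (meet_subset (U := up C) (hN z)))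
    omega
  have h2 : ∑ x, h N (meet N C x) ≤
      ∑ x, (univ.filter fun z => x ∈ cl N (up C z) \ cl N (meet N (up C) z)).card := by
    refine sum_le_sum fun x _ => card_le_card fun z hz => ?_
    rcases mem_sdiff.1 hz with ⟨hz1, hz2⟩
    refine mem_filter.2 ⟨mem_univ _, mem_sdiff.2 ⟨?_, ?_⟩⟩
    · rw [mem_meet] at hz2
      push Not at hz2
      obtain ⟨y, hy, hzy⟩ := hz2
      exact mem_cl.2 ⟨y, mem_up.2 (Or.inr hzy), hy⟩
    · intro hx
      obtain ⟨y, hy, hxy⟩ := mem_cl.1 hx
      obtain ⟨a, ha, hza⟩ := mem_cl.1 hz1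
      have hya := mem_meet.1 hy a hza
      have haC : a ∈ C y := mem_meet.1 ha y hxy
      rcases mem_up.1 hya with hh | hh
      · subst hh
        -- `y = a`
        have hax : y = x := hF.hBC y x (hF.hB y hxy) (mem_meet.1 ha x (hN x))
        subst hax
        have hyz := mem_meet.1 hy z (hN z)
        rcases mem_up.1 hyz with hh | hh
        · subst hh
          exact hz2 (mem_meet.2 fun w hw => hF.hC w hw)
        · exact hh (hF.hC y hza)
      · exact hh haC
  have h3 := sum_card_swap (V := V) fun z x => x ∈ cl N (up C z) \ cl N (meet N (up C) z)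
  have h4 := sum_le_sum fun z (_ : z ∈ (univ : Finset V)) => h1 z
  rw [sum_add_distrib] at h4
  omega

/-- The exchange inequality at an optimal outer pair. -/
theorem Opt.exchange (hN : ∀ a, a ∈ N a) (hO : Opt N B C) :
    (∑ z, h N (meet N B z)) + ∑ x, h N (meet N C x) ≤ (∑ a, h N (B a)) + ∑ a, h N (C a) := by
  have hF := hO.1
  have g := gap hN (B := B) (U := up C) (fun a => hF.sub_up a) hO.row (hO.col hN)
  have c1 := hF.cost_right hN
  have c2 := hF.cost_meet hN
  have e1 : ∑ z, (cl N (up C z)).card = (∑ z, h N (up C z)) + ∑ z, (up C z).card := by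
    rw [← sum_add_distrib]
    exact sum_congr rfl fun z _ => card_cl hN _
  have e2 : ∑ z, (cl N (meet N (up C) z)).card =
      (∑ z, h N (meet N (up C) z)) + ∑ z, (meet N (up C) z).card := by
    rw [← sum_add_distrib]
    exact sum_congr rfl fun z _ => card_cl hN _
  omega

/-- The exchanged pair is an outer pair again. -/
theorem Feas.shift (hN : ∀ a, a ∈ N a) (hF : Feas N B C) :
    Feas N (fun a => cl N (meet N B a)) fun a => cl N (meet N C a) := by
  refine ⟨?_, ?_, ?_⟩
  · intro a x hx
    exact mem_cl.2 ⟨a, mem_meet.2 fun b hb => hF.hB b hb, hx⟩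
  · intro a x hx
    exact mem_cl.2 ⟨a, mem_meet.2 fun b hb => hF.hC b hb, hx⟩
  · intro a v hv ha
    obtain ⟨x, hx, hvx⟩ := mem_cl.1 hv
    obtain ⟨y, hy, hay⟩ := mem_cl.1 ha
    have h1 : x ∈ B y := mem_meet.1 hx y hay
    have h2 : y ∈ C x := mem_meet.1 hy x hvx
    have hxy : y = x := hF.hBC y x h1 h2
    subst hxy
    have h3 : a = y := hF.hBC a y (mem_meet.1 hx a (hN a)) (hF.hC y hay)
    subst h3
    exact hF.hBC a v (hF.hB a hvx) (mem_meet.1 hy v (hN v))

/-- If taking the closed out-neighbourhood never enlarges the boundary, and makes it strictly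
smaller unless the boundary is empty, then there is a set `S ∋ a`, closed under out-neighbours,
for every outer pair: contradiction with an optimal pair on a cycle. -/
theorem exists_closed (hN : ∀ a, a ∈ N a) (hanti : ∀ a b, b ∈ N a → a ∈ N b → a = b)
    (hG : ∀ S : Finset V, h N S ≠ 0 → h N (cl N S) < h N S) :
    ∃ X Y : V → Finset V, (∀ a, a ∈ X a) ∧ (∀ a, a ∈ Y a) ∧ (∀ a, cl N (X a) = X a) ∧
      (∀ a, cl N (Y a) = Y a) ∧ ∀ a x, x ∈ X a → a ∈ Y x → a = x := by
  classical
  -- an optimal pair
  have hne : (univ.filter fun p : (V → Finset V) × (V → Finset V) =>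
      Feas N p.1 p.2).Nonempty :=
    ⟨(N, N), mem_filter.2 ⟨mem_univ _, ⟨fun _ => Subset.rfl, fun _ => Subset.rfl,
      fun a x hx ha => hanti a x hx ha⟩⟩⟩
  obtain ⟨⟨B, C⟩, hmem, hmin⟩ := exists_min_image _
    (fun p : (V → Finset V) × (V → Finset V) => (∑ a, h N (p.1 a)) + ∑ a, h N (p.2 a)) hne
  have hF : Feas N B C := (mem_filter.1 hmem).2
  have hO : Opt N B C := ⟨hF, fun B' C' hF' => hmin (B', C') (mem_filter.2 ⟨mem_univ _, hF'⟩)⟩
  have h1 := hO.exchange hN
  have hF' := hF.shift hN
  have h2 := hO.2 _ _ hF'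
  have hle : ∀ S : Finset V, h N (cl N S) ≤ h N S := by
    intro S
    by_cases hS : h N S = 0
    · have : cl N S = S := by
        have := card_eq_zero.1 hS
        exact Subset.antisymm (sdiff_eq_empty_iff_subset.1 this) (subset_cl hN S)
      rw [this]
    · exact (hG S hS).le
  have h3 : ∑ a, h N (cl N (meet N B a)) ≤ ∑ a, h N (meet N B a) :=
    sum_le_sum fun a _ => hle _
  have h4 : ∑ a, h N (cl N (meet N C a)) ≤ ∑ a, h N (meet N C a) :=
    sum_le_sum fun a _ => hle _
  have h5 : ∑ a, h N (cl N (meet N B a)) = ∑ a, h N (meet N B a) := by omega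
  have h6 : ∑ a, h N (cl N (meet N C a)) = ∑ a, h N (meet N C a) := by omega
  have h7 := (sum_eq_sum_iff_of_le fun a _ => hle (meet N B a)).1 h5
  have h8 := (sum_eq_sum_iff_of_le fun a _ => hle (meet N C a)).1 h6
  have hcl : ∀ S : Finset V, h N (cl N S) = h N S → cl N S = S := by
    intro S hS
    by_cases h0 : h N S = 0
    · exact Subset.antisymm (sdiff_eq_empty_iff_subset.1 (card_eq_zero.1 h0)) (subset_cl hN S)
    · exact absurd (hG S h0) (by omega)
  refine ⟨meet N B, meet N C, fun a => mem_meet.2 fun b hb => hF.hB b hb,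
    fun a => mem_meet.2 fun b hb => hF.hC b hb, fun a => hcl _ (h7 a (mem_univ a)),
    fun a => hcl _ (h8 a (mem_univ a)), ?_⟩
  intro a x hx ha
  exact hF'.hBC a x (subset_cl hN _ hx) (subset_cl hN _ ha)

end Vale.Agent.P038.H381
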